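import Mathlib

/-!
P022-CFT, block [DIS] (helper520): `L` a number field, `m` prime to its discriminant: the `m`-th
cyclotomic polynomial is irreducible over `L`; if `L / K` is Galois and `C / L` is cyclotomic of level
`m`, then `Gal(C / K) = Gal(L / K) x (Z / m)^x`.
-/

open Polynomial IntermediateField NumberField

namespace Vale.Agent.P022.CF.H520

set_option backward.isDefEq.respectTransparency false in
/-- the degree of a cyclotomic extension of level prime to the discriminant. -/
theorem finrank_cyc (L : Type*) [Field L] [NumberField L] (E : Type*) [Field E] [Algebra L E]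
    (m : ℕ) (hm : m ≠ 0) (h : m.Coprime (discr L).natAbs) [IsCyclotomicExtension {m} L E] :
    Module.finrank L E = m.totient := by
  have : NeZero m := ⟨hm⟩
  have : NumberField E := IsCyclotomicExtension.numberField {m} L E
  have : CharZero L := inferInstance
  have : NeZero (m : E) := ⟨by exact_mod_cast hm⟩
  have hζ := IsCyclotomicExtension.zeta_spec m L E
  set ζ := IsCyclotomicExtension.zeta m L E with hζd
  have := hζ.intermediateField_adjoin_isCyclotomicExtension ℚ
  set F₁ : IntermediateField ℚ E := ℚ⟮ζ⟯ with hF₁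
  have : IsGalois ℚ F₁ := IsCyclotomicExtension.isGalois {m} ℚ F₁
  let φ : L →ₐ[ℚ] E := IsScalarTower.toAlgHom ℚ L E
  set F₂ : IntermediateField ℚ E := φ.fieldRange with hF₂
  let e : L ≃ₐ[ℚ] F₂ := AlgEquiv.ofInjectiveField φ
  have hd : discr F₂ = discr L := (discr_eq_discr_of_algEquiv _ e).symm
  have hc : IsCoprime (discr F₁) (discr F₂) := by
    rw [Int.isCoprime_iff_nat_coprime, hd, IsCyclotomicExtension.Rat.natAbs_discr m F₁]
    refine Nat.Coprime.coprime_div_left ?_
      (Nat.prod_primeFactors_pow_totient_ediv_dvd (NeZero.pos _))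
    exact Nat.Coprime.pow_left _ h
  have hdis : F₁.LinearDisjoint F₂ := linearDisjoint_of_isGalois_isCoprime_discr _ _ _ hc
  have htop : F₁ ⊔ F₂ = ⊤ := by
    rw [eq_top_iff]
    intro x _
    have hx : x ∈ IntermediateField.adjoin L ({ζ} : Set E) := by
      have h1 := IsCyclotomicExtension.adjoin_primitive_root_eq_top (A := L) (B := E) hζ
      have h2 : x ∈ Algebra.adjoin L ({ζ} : Set E) := by rw [h1]; trivial
      exact IntermediateField.algebra_adjoin_le_adjoin L _ h2
    let T : IntermediateField L E :=
      { (F₁ ⊔ F₂).toSubfield with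
        algebraMap_mem' := fun l => by
          have : algebraMap L E l ∈ F₂ := ⟨l, rfl⟩
          exact (le_sup_right : F₂ ≤ F₁ ⊔ F₂) this }
    have hT : IntermediateField.adjoin L ({ζ} : Set E) ≤ T := by
      rw [IntermediateField.adjoin_le_iff, Set.singleton_subset_iff]
      exact (le_sup_left : F₁ ≤ F₁ ⊔ F₂) (mem_adjoin_simple_self ℚ ζ)
    exact hT hx
  have h1 : Module.finrank ℚ E = m.totient * Module.finrank ℚ L := by
    rw [← finrank_top' (F := ℚ) (E := E), ← htop, hdis.finrank_sup,
      IsCyclotomicExtension.Rat.finrank m F₁, e.toLinearEquiv.finrank_eq]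
  have h2 := Module.finrank_mul_finrank ℚ L E
  have h3 : 0 < Module.finrank ℚ L := Module.finrank_pos
  have h4 : Module.finrank ℚ L * Module.finrank L E = Module.finrank ℚ L * m.totient := by
    rw [h2, h1, mul_comm]
  exact Nat.eq_of_mul_eq_mul_left h3 h4

/-- the cyclotomic polynomial stays irreducible over `L`. -/
theorem irr_cyc (L : Type*) [Field L] [NumberField L] (m : ℕ) (hm : m ≠ 0)
    (h : m.Coprime (discr L).natAbs) : Irreducible (cyclotomic m L) := by
  have : NeZero m := ⟨hm⟩
  have : NeZero (m : L) := ⟨by exact_mod_cast hm⟩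
  let E := CyclotomicField m L
  have hζ := IsCyclotomicExtension.zeta_spec m L E
  set ζ := IsCyclotomicExtension.zeta m L E with hζd
  have hfin := finrank_cyc L E m hm h
  have hpb := (IsPrimitiveRoot.powerBasis L hζ).finrank
  have hdeg : (minpoly L ζ).natDegree = m.totient := by
    have := (IsPrimitiveRoot.powerBasis L hζ).natDegree_minpoly
    rw [IsPrimitiveRoot.powerBasis_gen] at this
    rw [this, ← hpb, hfin]
  have hint : IsIntegral L ζ := by
    have := (IsPrimitiveRoot.powerBasis L hζ).isIntegral_gen
    rwa [IsPrimitiveRoot.powerBasis_gen] at this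
  have hdvd : minpoly L ζ ∣ cyclotomic m L := by
    refine minpoly.dvd L ζ ?_
    rw [aeval_def, eval₂_eq_eval_map, map_cyclotomic]
    exact hζ.isRoot_cyclotomic (NeZero.pos m)
  have heq : cyclotomic m L = minpoly L ζ := by
    refine eq_of_monic_of_dvd_of_natDegree_le (minpoly.monic hint) (cyclotomic.monic m L) hdvd ?_
    rw [natDegree_cyclotomic, hdeg]
  rw [heq]
  exact minpoly.irreducible hint

end Vale.Agent.P022.CF.H520
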