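import Vale.Agent.P022.CF.H520Dis

/-!
P022-CFT, block [DIS], part 2 (helper520): `L / K` Galois, `C / L` cyclotomic of level `m` prime to the
discriminant of `L`: `Gal(C / K) = Gal(L / K) x (Z / m)^x`.
-/

open Polynomial IntermediateField NumberField

namespace Vale.Agent.P022.CF.H520

section

variable (K L C : Type*) [Field K] [Field L] [NumberField L] [Field C] [NumberField K]
  [Algebra K L] [Algebra K C] [Algebra L C] [IsScalarTower K L C] [IsGalois K L] (m : ℕ) [NeZero m]
  [IsCyclotomicExtension {m} L C]

include L m in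
/-- the composite of a Galois extension and a cyclotomic one is Galois. -/
theorem isGalois_cyc : IsGalois K C := by
  have : NumberField C := IsCyclotomicExtension.numberField {m} L C
  have : NeZero (m : C) := ⟨by exact_mod_cast NeZero.ne m⟩
  have hζ := IsCyclotomicExtension.zeta_spec m L C
  set ζ := IsCyclotomicExtension.zeta m L C with hζd
  have := hζ.intermediateField_adjoin_isCyclotomicExtension K
  set F₁ : IntermediateField K C := K⟮ζ⟯ with hF₁
  have : IsGalois K F₁ := IsCyclotomicExtension.isGalois {m} K F₁
  let φ : L →ₐ[K] C := IsScalarTower.toAlgHom K L C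
  set F₂ : IntermediateField K C := φ.fieldRange with hF₂
  let e : L ≃ₐ[K] F₂ := AlgEquiv.ofInjectiveField φ
  have : Normal K F₂ := Normal.of_algEquiv e
  have htop : F₁ ⊔ F₂ = ⊤ := by
    rw [eq_top_iff]
    intro x _
    have hx : x ∈ IntermediateField.adjoin L ({ζ} : Set C) := by
      have h1 := IsCyclotomicExtension.adjoin_primitive_root_eq_top (A := L) (B := C) hζ
      have h2 : x ∈ Algebra.adjoin L ({ζ} : Set C) := by rw [h1]; trivial
      exact IntermediateField.algebra_adjoin_le_adjoin L _ h2
    let T : IntermediateField L C :=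
      { (F₁ ⊔ F₂).toSubfield with
        algebraMap_mem' := fun l => by
          have : algebraMap L C l ∈ F₂ := ⟨l, rfl⟩
          exact (le_sup_right : F₂ ≤ F₁ ⊔ F₂) this }
    have hT : IntermediateField.adjoin L ({ζ} : Set C) ≤ T := by
      rw [IntermediateField.adjoin_le_iff, Set.singleton_subset_iff]
      exact (le_sup_left : F₁ ≤ F₁ ⊔ F₂) (mem_adjoin_simple_self K ζ)
    exact hT hx
  have h1 : Normal K (F₁ ⊔ F₂ : IntermediateField K C) := inferInstance
  rw [htop] at h1
  have h2 : Normal K C := Normal.of_algEquiv (topEquiv (F := K) (E := C))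
  exact { }

/-- restriction to `L`, and the cyclotomic character. -/
noncomputable def pair : (C ≃ₐ[K] C) →* (L ≃ₐ[K] L) × (ZMod m)ˣ :=
  (AlgEquiv.restrictNormalHom L).prod
    ((IsCyclotomicExtension.zeta_spec m L C).autToPow K)

theorem pair_fst (g : C ≃ₐ[K] C) (x : L) :
    algebraMap L C ((pair K L C m g).1 x) = g (algebraMap L C x) :=
  AlgEquiv.restrictNormal_commutes g L x

theorem pair_snd' (g : C ≃ₐ[K] C) :
    (IsCyclotomicExtension.zeta m L C) ^ (((pair K L C m g).2 : (ZMod m)ˣ) : ZMod m).val =
      g (IsCyclotomicExtension.zeta m L C) :=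
  IsPrimitiveRoot.autToPow_spec K (IsCyclotomicExtension.zeta_spec m L C) g

/-- every `m`-th root of unity is raised to the power `(pair g).2`. -/
theorem pair_snd (g : C ≃ₐ[K] C) (x : C) (hx : x ^ m = 1) :
    x ^ (((pair K L C m g).2 : (ZMod m)ˣ) : ZMod m).val = g x := by
  obtain ⟨i, -, rfl⟩ := (IsCyclotomicExtension.zeta_spec m L C).eq_pow_of_pow_eq_one hx
  rw [map_pow, ← pair_snd', ← pow_mul, ← pow_mul, mul_comm]

theorem pair_inj : Function.Injective (pair K L C m) := by
  rw [injective_iff_map_eq_one]
  intro g hg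
  have h1 : ∀ x : L, g (algebraMap L C x) = algebraMap L C x := by
    intro x
    rw [← pair_fst K L C m g x, hg]
    rfl
  have h2 : g (IsCyclotomicExtension.zeta m L C) = IsCyclotomicExtension.zeta m L C := by
    rw [← pair_snd' K L C m g, hg]
    by_cases hm : m = 1
    · have := (IsCyclotomicExtension.zeta_spec m L C)
      subst hm
      have h3 : IsCyclotomicExtension.zeta 1 L C = 1 := IsPrimitiveRoot.one_right_iff.mp this
      rw [h3, one_pow]
    · have : Fact (1 < m) := ⟨by have := NeZero.ne m; omega⟩
      simp [ZMod.val_one]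
  let g' : C ≃ₐ[L] C := { g with commutes' := h1 }
  have h3 : g' = AlgEquiv.refl := by
    refine IsCyclotomicExtension.algEquiv_eq_of_apply_eq {m} L C ?_
    intro n hn _
    rw [Set.mem_singleton_iff] at hn
    subst hn
    exact ⟨_, IsCyclotomicExtension.zeta_spec n L C, h2⟩
  ext x
  exact DFunLike.congr_fun h3 x

/-- `Gal(C / K) = Gal(L / K) x (Z / m)^x`. -/
theorem pair_bij (h : m.Coprime (discr L).natAbs) : Function.Bijective (pair K L C m) := by
  have : NumberField C := IsCyclotomicExtension.numberField {m} L C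
  have : IsGalois K C := isGalois_cyc K L C m
  refine Function.Injective.bijective_of_nat_card_le (pair_inj K L C m) ?_
  rw [Nat.card_prod, IsGalois.card_aut_eq_finrank, IsGalois.card_aut_eq_finrank,
    Nat.card_eq_fintype_card, ZMod.card_units_eq_totient,
    ← finrank_cyc L C m (NeZero.ne m) h, Module.finrank_mul_finrank]

end

end Vale.Agent.P022.CF.H520
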