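import Mathlib

/-! # P022-CFT: literals (Artin reciprocity for cyclic extensions of prime power degree) -/

open scoped TensorProduct NumberField
open IsDedekindDomain

noncomputable section

namespace Vale.Agent.P022.CF

section defs

variable (K R L : Type) [Field K] [CommRing R] [Algebra K R] [Field L] [Algebra K L]

/-- the action of `g ∈ Gal(L/K)` on `R ⊗ L` -/
def act (g : L ≃ₐ[K] L) : (R ⊗[K] L) ≃ₐ[R] (R ⊗[K] L) :=
  Algebra.TensorProduct.congr AlgEquiv.refl g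

/-- `α` is a norm from `R ⊗ L` -/
def LN [FiniteDimensional K L] (α : K) : Prop :=
  ∃ y : R ⊗[K] L, ∏ g : L ≃ₐ[K] L, act K R L g y = algebraMap K (R ⊗[K] L) α

end defs

section nf

variable {K : Type} [Field K] [NumberField K]

/-- the order of `x` at `v` (an integer, `0` for `x = 0`) -/
def ord (v : HeightOneSpectrum (𝓞 K)) (x : K) : ℤ := -(WithZero.log (v.valuation K x))

/-- `α` is a norm from `K_v ⊗ L` -/
def LNv (L : Type) [Field L] [Algebra K L] [FiniteDimensional K L]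
    (v : HeightOneSpectrum (𝓞 K)) (α : K) : Prop := LN K (v.adicCompletion K) L α

/-- the norm of the prime `v` -/
def Nm (v : HeightOneSpectrum (𝓞 K)) : ℕ := Ideal.absNorm v.asIdeal

variable {M : Type} [Field M] [NumberField M] [Algebra K M]

/-- `P` lies above `v` -/
def Over (v : HeightOneSpectrum (𝓞 K)) (P : HeightOneSpectrum (𝓞 M)) : Prop :=
  P.asIdeal.comap (algebraMap (𝓞 K) (𝓞 M)) = v.asIdeal

variable (M) in
/-- `v` is unramified in `M` -/
def Unr (v : HeightOneSpectrum (𝓞 K)) : Prop :=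
  ∀ P : HeightOneSpectrum (𝓞 M), Over v P → ∀ x : K, ord P (algebraMap K M x) = ord v x

/-- `g` is a Frobenius element at `P`, a prime above `v` -/
def IsFrP (v : HeightOneSpectrum (𝓞 K)) (P : HeightOneSpectrum (𝓞 M)) (g : M ≃ₐ[K] M) : Prop :=
  Over v P ∧ ∀ x : 𝓞 M, P.valuation M (g (x : M) - (x : M) ^ Nm v) < 1

/-- `g` is a Frobenius element at some prime above `v` -/
def IsFr (v : HeightOneSpectrum (𝓞 K)) (g : M ≃ₐ[K] M) : Prop :=
  ∃ P : HeightOneSpectrum (𝓞 M), IsFrP v P g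

/-- `g` is a complex conjugation at the real place `φ` -/
def IsCj (φ : K →+* ℝ) (g : M ≃ₐ[K] M) : Prop :=
  ∃ Φ : M →+* ℂ, (∀ x : K, Φ (algebraMap K M x) = (φ x : ℂ)) ∧
    ∀ x : M, Φ (g x) = starRingEnd ℂ (Φ x)

end nf

/-! ## Hilbert 90, fixed rings, base change -/

/-- [H90] -/
def H90Stmt : Prop := ∀ (K R L : Type) [Field K] [Infinite K] [Field R] [Algebra K R] [Field L]
  [Algebra K L] [FiniteDimensional K L] [IsGalois K L] (g : L ≃ₐ[K] L) (x : R ⊗[K] L),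
  (∏ i ∈ Finset.range (orderOf g), act K R L (g ^ i) x = 1) →
    ∃ y : (R ⊗[K] L)ˣ, x * y = act K R L g y

/-- [FIX] fixed ring of `g` -/
def FIXStmt : Prop := ∀ (K R L F : Type) [Field K] [Field R] [Algebra K R] [Field L]
  [Algebra K L] [FiniteDimensional K L] [IsGalois K L] [Field F] [Algebra K F] (i : F →ₐ[K] L)
  (g : L ≃ₐ[K] L) (_ : ∀ x : L, g x = x → x ∈ i.range) (x : R ⊗[K] L) (_ : act K R L g x = x),
    x ∈ (Algebra.TensorProduct.map (AlgHom.id R R) i).range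

/-- [BC] base change: `K ⊂ F`, `K ⊂ L ⊂ M`, `F ⊂ M`, restriction `Gal(M/F) → Gal(L/K)`
injective (i.e. `M = L F`) -/
def BCStmt : Prop := ∀ (K F L M R : Type) [Field K] [Field F] [Field L] [Field M] [CommRing R]
  [Algebra K F] [Algebra K L] [Algebra K M] [Algebra F M] [Algebra L M] [IsScalarTower K F M]
  [IsScalarTower K L M] [FiniteDimensional K L] [FiniteDimensional F M] [IsGalois K L]
  [IsGalois F M] [Algebra K R] [Algebra F R] [IsScalarTower K F R]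
  (_ : ∀ g : M ≃ₐ[F] M, (∀ x : L, g (algebraMap L M x) = algebraMap L M x) → g = 1)
  (α : K), LN K R L α → LN F R M (algebraMap K F α)

/-- [BCV] the completion `K_v → F_w` for `w` above `v`, and the form of [BC] with it -/
def BCVStmt : Prop := ∀ (K F L M : Type) [Field K] [NumberField K] [Field F] [NumberField F]
  [Field L] [NumberField L] [Field M] [NumberField M]
  [Algebra K F] [Algebra K L] [Algebra K M] [Algebra F M] [Algebra L M] [IsScalarTower K F M]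
  [IsScalarTower K L M] [IsGalois K L] [IsGalois F M]
  (_ : ∀ g : M ≃ₐ[F] M, (∀ x : L, g (algebraMap L M x) = algebraMap L M x) → g = 1)
  (v : HeightOneSpectrum (𝓞 K)) (w : HeightOneSpectrum (𝓞 F)) (_ : Over v w)
  (α : K), LNv L v α → LNv M w (algebraMap K F α)

/-! ## approximation, unramified norms -/

/-- [APX] a local norm at finitely many places is close to a global norm -/
def APXStmt : Prop := ∀ (K L : Type) [Field K] [NumberField K] [Field L] [NumberField L]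
  [Algebra K L] [IsGalois K L] (T : Finset (HeightOneSpectrum (𝓞 K))) (α : K) (_ : α ≠ 0)
  (_ : ∀ v ∈ T, LNv L v α) (k : ℕ), ∃ y : L, y ≠ 0 ∧
    ∀ v ∈ T, v.valuation K (α / Algebra.norm K y - 1) ≤ WithZero.exp (-(k : ℤ))

/-- [NEAR] elements close to a global norm are local norms -/
def NEARStmt : Prop := ∀ (K L : Type) [Field K] [NumberField K] [Field L] [NumberField L]
  [Algebra K L] [IsGalois K L] (v : HeightOneSpectrum (𝓞 K)), ∃ k : ℕ, ∀ (α : K) (y : L),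
    α ≠ 0 → y ≠ 0 → v.valuation K (α / Algebra.norm K y - 1) ≤ WithZero.exp (-(k : ℤ)) →
    LNv L v α

/-- [NEAR1] the tame case: `v` prime to the degree, `α ≡ 1` modulo `v` -/
def NEAR1Stmt : Prop := ∀ (K L : Type) [Field K] [NumberField K] [Field L] [NumberField L]
  [Algebra K L] [IsGalois K L] (v : HeightOneSpectrum (𝓞 K))
  (_ : ((Module.finrank K L : ℕ) : 𝓞 K) ∉ v.asIdeal) (α : K),
    v.valuation K (α - 1) < 1 → LNv L v α

/-- [U] unramified: `α` is a local norm when the order of Frobenius divides `v(α)` -/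
def UStmt : Prop := ∀ (K L : Type) [Field K] [NumberField K] [Field L] [NumberField L]
  [Algebra K L] [IsGalois K L] (v : HeightOneSpectrum (𝓞 K)) (_ : Unr L v) (g : L ≃ₐ[K] L)
  (_ : IsFr v g) (α : K) (_ : α ≠ 0) (_ : (orderOf g : ℤ) ∣ ord v α), LNv L v α

/-- [U'] the converse: the order of Frobenius divides `v(α)` for a local norm `α` -/
def UCStmt : Prop := ∀ (K L : Type) [Field K] [NumberField K] [Field L] [NumberField L]
  [Algebra K L] [IsGalois K L] (v : HeightOneSpectrum (𝓞 K)) (_ : Unr L v) (g : L ≃ₐ[K] L)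
  (_ : IsFr v g) (α : K) (_ : α ≠ 0) (_ : LNv L v α), (orderOf g : ℤ) ∣ ord v α

/-! ## Hasse norm theorem -/

/-- [HNP] prime degree (no root of unity assumed; `K` totally complex if `l = 2`) -/
def HNPStmt : Prop := ∀ (K L : Type) [Field K] [NumberField K] [Field L] [NumberField L]
  [Algebra K L] [IsGalois K L] (l : ℕ) (_ : l.Prime) (_ : Module.finrank K L = l)
  (_ : l = 2 → NumberField.IsTotallyComplex K) (α : K) (_ : α ≠ 0)
  (_ : ∀ v : HeightOneSpectrum (𝓞 K), LNv L v α), ∃ y : L, Algebra.norm K y = α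

/-- [HN] cyclic of degree `l ^ a` -/
def HNStmt : Prop := ∀ (K L : Type) [Field K] [NumberField K] [Field L] [NumberField L]
  [Algebra K L] [IsGalois K L] [IsCyclic (L ≃ₐ[K] L)] (l a : ℕ) (_ : l.Prime)
  (_ : Module.finrank K L = l ^ a)
  (_ : l = 2 → NumberField.IsTotallyComplex K) (α : K) (_ : α ≠ 0)
  (_ : ∀ v : HeightOneSpectrum (𝓞 K), LNv L v α), ∃ y : L, Algebra.norm K y = α

/-! ## the crossing -/

section cross

variable (K M : Type) [Field K] [NumberField K] [Field M] [NumberField M] [Algebra K M]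

/-- a crossing: `M / K` abelian with `Gal(M/K) = ⟨σ⟩ × ⟨τ⟩`, `σ` of order `n`, `τ` of order
`N` -/
structure Cr (n N : ℕ) where
  σ : M ≃ₐ[K] M
  τ : M ≃ₐ[K] M
  comm : σ * τ = τ * σ
  oσ : orderOf σ = n
  oτ : orderOf τ = N
  gen : ∀ g : M ≃ₐ[K] M, ∃ i j : ℕ, g = σ ^ i * τ ^ j
  dis : ∀ i j : ℕ, σ ^ i * τ ^ j = 1 → n ∣ i ∧ N ∣ j

end cross

/-- [X] the crossing, global part -/
def XGStmt : Prop := ∀ (K M : Type) [Field K] [NumberField K] [Field M] [NumberField M]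
  [Algebra K M] [IsGalois K M] (n N : ℕ) (c : Cr K M n N) (α : K) (_ : α ≠ 0) (y : M)
  (_ : ∏ i ∈ Finset.range n, (c.σ ^ i) y = algebraMap K M α),
  ∃ (z : M) (β : K), z ≠ 0 ∧ β ≠ 0 ∧ c.τ y * z = c.σ z * y ∧
    ∏ j ∈ Finset.range N, (c.τ ^ j) z = algebraMap K M β

/-- [X] the crossing, local part: `F = M^τ` (called `L` before), `Z = M^σ` -/
def XLStmt : Prop := ∀ (K R M F Z : Type) [Field K] [NumberField K] [Field M] [NumberField M]
  [Algebra K M] [IsGalois K M] [Field F] [NumberField F] [Algebra K F] [Algebra F M]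
  [IsScalarTower K F M] [Field Z] [NumberField Z] [Algebra K Z] [Algebra Z M]
  [IsScalarTower K Z M] [IsGalois K F] [IsGalois K Z] [Field R] [Algebra K R]
  (n N : ℕ) (c : Cr K M n N)
  (_ : ∀ x : M, c.τ x = x ↔ x ∈ (algebraMap F M).range)
  (_ : ∀ x : M, c.σ x = x ↔ x ∈ (algebraMap Z M).range)
  (α β : K) (_ : α ≠ 0) (_ : β ≠ 0) (y z : M) (_ : z ≠ 0)
  (_ : ∏ i ∈ Finset.range n, (c.σ ^ i) y = algebraMap K M α)
  (_ : c.τ y * z = c.σ z * y)
  (_ : ∏ j ∈ Finset.range N, (c.τ ^ j) z = algebraMap K M β),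
  LN K R F α → LN K R Z β

/-- [D] the relation at an unramified place -/
def DStmt : Prop := ∀ (K M : Type) [Field K] [NumberField K] [Field M] [NumberField M]
  [Algebra K M] [IsGalois K M] (n N : ℕ) (c : Cr K M n N) (α β : K) (_ : α ≠ 0) (_ : β ≠ 0)
  (y z : M) (_ : z ≠ 0)
  (_ : ∏ i ∈ Finset.range n, (c.σ ^ i) y = algebraMap K M α)
  (_ : c.τ y * z = c.σ z * y)
  (_ : ∏ j ∈ Finset.range N, (c.τ ^ j) z = algebraMap K M β)
  (v : HeightOneSpectrum (𝓞 K)) (_ : Unr M v) (i j : ℕ) (_ : IsFr v (c.σ ^ i * c.τ ^ j)),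
  ((n * N : ℕ) : ℤ) ∣ ord v α * (i * N : ℕ) + ord v β * (j * n : ℕ)

/-- [DR] the relation at a real place: `c.σ ^ i * c.τ ^ j` is the complex conjugation,
`c.τ ^ j ≠ 1` -/
def DRStmt : Prop := ∀ (K M : Type) [Field K] [NumberField K] [Field M] [NumberField M]
  [Algebra K M] [IsGalois K M] (n N : ℕ) (c : Cr K M n N) (α β : K) (_ : α ≠ 0) (_ : β ≠ 0)
  (y z : M) (_ : z ≠ 0)
  (_ : ∏ i ∈ Finset.range n, (c.σ ^ i) y = algebraMap K M α)
  (_ : c.τ y * z = c.σ z * y)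
  (_ : ∏ j ∈ Finset.range N, (c.τ ^ j) z = algebraMap K M β)
  (φ : K →+* ℝ) (i j : ℕ) (_ : IsCj φ (c.σ ^ i * c.τ ^ j)) (_ : ¬ N ∣ j),
  (n ∣ i → 0 < φ β) ∧ (¬ n ∣ i → (φ α < 0 ↔ φ β < 0))

/-! ## the cyclotomic side -/

/-- [E] existence of the character -/
def EStmt : Prop := ∀ (l : ℕ) (_ : l.Prime) (a B : ℕ) (_ : B ≠ 0) (P : Finset ℕ)
  (_ : ∀ p ∈ P, 2 ≤ p), ∃ (m b : ℕ) (ψ : (ZMod m)ˣ →* Multiplicative (ZMod (l ^ b))),
    0 < m ∧ m.Coprime B ∧ Squarefree m ∧ Function.Surjective ψ ∧ (l = 2 → ψ (-1) ≠ 1) ∧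
    ∀ p ∈ P, ∃ h : p.Coprime m, l ^ a ∣ orderOf (ψ (ZMod.unitOfCoprime p h))

/-- the cyclotomic data: `Z/K` cyclic of degree `l ^ b` with generator `τ`, inside `K(ζ_m)`,
`Frob_v = τ ^ ψ(N v)` -/
structure Cyc (K Z : Type) [Field K] [NumberField K] [Field Z] [NumberField Z] [Algebra K Z]
    (m l b : ℕ) (ψ : (ZMod m)ˣ →* Multiplicative (ZMod (l ^ b))) where
  τ : Z ≃ₐ[K] Z
  oτ : orderOf τ = l ^ b
  gen : ∀ g : Z ≃ₐ[K] Z, ∃ j : ℕ, g = τ ^ j
  unr : ∀ v : HeightOneSpectrum (𝓞 K), (Nm v).Coprime m → Unr Z v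
  frob : ∀ (v : HeightOneSpectrum (𝓞 K)) (h : (Nm v).Coprime m) (j : ℕ),
    ψ (ZMod.unitOfCoprime (Nm v) h) = Multiplicative.ofAdd (j : ZMod (l ^ b)) → IsFr v (τ ^ j)
  cj : ∀ (φ : K →+* ℝ) (j : ℕ), ψ (-1) = Multiplicative.ofAdd (j : ZMod (l ^ b)) →
    IsCj φ (τ ^ j)

/-- [DIS] existence of the crossing of `L/K` with a cyclotomic `Z/K`, for `m` prime to a number
`B` which depends on `L` only -/
def DISStmt : Prop := ∀ (K L : Type) [Field K] [NumberField K] [Field L] [NumberField L]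
  [Algebra K L] [IsGalois K L], ∃ B : ℕ, B ≠ 0 ∧ ∀ (m l b : ℕ) (_ : 0 < m) (_ : m.Coprime B)
    (_ : l.Prime) (ψ : (ZMod m)ˣ →* Multiplicative (ZMod (l ^ b))) (_ : Function.Surjective ψ)
    (s : L ≃ₐ[K] L) (_ : ∀ g : L ≃ₐ[K] L, ∃ i : ℕ, g = s ^ i),
    ∃ (Z M : Type) (_ : Field Z) (_ : NumberField Z) (_ : Field M) (_ : NumberField M)
      (_ : Algebra K Z) (_ : Algebra K M) (_ : Algebra L M) (_ : Algebra Z M)
      (_ : IsScalarTower K L M) (_ : IsScalarTower K Z M) (_ : IsGalois K M) (_ : IsGalois K Z)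
      (_ : IsGalois Z M) (d : Cyc K Z m l b ψ) (c : Cr K M (Module.finrank K L) (l ^ b)),
      (∀ x : L, c.σ (algebraMap L M x) = algebraMap L M (s x)) ∧
      (∀ x : L, c.τ (algebraMap L M x) = algebraMap L M x) ∧
      (∀ x : Z, c.σ (algebraMap Z M x) = algebraMap Z M x) ∧
      (∀ x : Z, c.τ (algebraMap Z M x) = algebraMap Z M (d.τ x)) ∧
      (∀ x : M, c.τ x = x ↔ x ∈ (algebraMap L M).range) ∧
      (∀ x : M, c.σ x = x ↔ x ∈ (algebraMap Z M).range) ∧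
      (∀ v : HeightOneSpectrum (𝓞 K), Unr L v → (Nm v).Coprime m → Unr M v) ∧
      (∀ (v : HeightOneSpectrum (𝓞 K)) (i j : ℕ), IsFr v (s ^ i) → IsFr v (d.τ ^ j) →
        Unr L v → (Nm v).Coprime m → IsFr v (c.σ ^ i * c.τ ^ j)) ∧
      (∀ (φ : K →+* ℝ) (i j : ℕ), IsCj φ (s ^ i) → IsCj φ (d.τ ^ j) →
        IsCj φ (c.σ ^ i * c.τ ^ j))

/-- `F_ψ(β) = Σ_(v prime to m) v(β) ψ(N v)`, multiplicatively -/
def Fpsi {K : Type} [Field K] [NumberField K] {m : ℕ} {A : Type} [CommGroup A]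
    (ψ : (ZMod m)ˣ →* A) (β : K) : A :=
  open Classical in ∏ᶠ v : HeightOneSpectrum (𝓞 K),
    if h : (Nm v).Coprime m then ψ (ZMod.unitOfCoprime (Nm v) h) ^ ord v β else 1

/-- [CYC2] `F_ψ(β) = ψ(-1) ^ #{φ : φ β < 0}` for `β ≡ 1` modulo `m` at the places dividing
`m` -/
def CYC2Stmt : Prop := ∀ (K : Type) [Field K] [NumberField K] (m : ℕ) (_ : 0 < m) (A : Type)
  [CommGroup A] (ψ : (ZMod m)ˣ →* A) (β : K) (_ : β ≠ 0)
  (_ : ∀ v : HeightOneSpectrum (𝓞 K), (m : 𝓞 K) ∈ v.asIdeal →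
    v.valuation K (β - 1) ≤ v.valuation K (m : K)),
  Fpsi ψ β = ψ (-1) ^ Nat.card {φ : K →+* ℝ // φ β < 0}

/-- [CYC] the value of `F_ψ` on an element which is a local norm at the places dividing `m` -/
def CYCStmt : Prop := ∀ (K Z : Type) [Field K] [NumberField K] [Field Z] [NumberField Z]
  [Algebra K Z] [IsGalois K Z] (m l b : ℕ) (_ : 0 < m) (_ : l.Prime)
  (ψ : (ZMod m)ˣ →* Multiplicative (ZMod (l ^ b))) (_ : Function.Surjective ψ)
  (_ : l = 2 → ψ (-1) ≠ 1) (_ : Cyc K Z m l b ψ) (β : K) (_ : β ≠ 0)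
  (_ : ∀ v : HeightOneSpectrum (𝓞 K), ¬ (Nm v).Coprime m → LNv Z v β),
  Fpsi ψ β = ψ (-1) ^ Nat.card {φ : K →+* ℝ // φ β < 0}

/-! ## reciprocity -/

/-- [ART] reciprocity for cyclic extensions of prime power degree, with signs: `S` contains the
ramified primes, `α` is a local norm at `S` -/
def ARTStmt : Prop := ∀ (K L : Type) [Field K] [NumberField K] [Field L] [NumberField L]
  [Algebra K L] [IsGalois K L] [IsCyclic (L ≃ₐ[K] L)] (l a : ℕ) (_ : l.Prime)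
  (_ : Module.finrank K L = l ^ a) (A : Type) [CommGroup A] (χ : (L ≃ₐ[K] L) →* A)
  (S : Finset (HeightOneSpectrum (𝓞 K))) (_ : ∀ v ∉ S, Unr L v)
  (fr : HeightOneSpectrum (𝓞 K) → (L ≃ₐ[K] L)) (_ : ∀ v ∉ S, IsFr v (fr v))
  (cj : (K →+* ℝ) → (L ≃ₐ[K] L)) (_ : ∀ φ, IsCj φ (cj φ))
  (α : K) (_ : α ≠ 0) (_ : ∀ v ∈ S, LNv L v α),
  (∏ᶠ (v : HeightOneSpectrum (𝓞 K)) (_ : v ∉ S), χ (fr v) ^ ord v α) *
    (∏ᶠ (φ : K →+* ℝ) (_ : φ α < 0), χ (cj φ)) = 1

end Vale.Agent.P022.CF
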